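import Vale.Agent.P286.H621.OfCx
import Vale.Agent.P286.H847.BrgD
import Vale.Agent.P286.H697.DRF

/-!
# The DG functor from complexes to families of graded differential spaces
-/

namespace Vale.Agent.P286.H621

open CategoryTheory CochainComplex.HomComplex
open Vale.Agent.P286.St Vale.Agent.P286.H847 Vale.Agent.P286.H353

noncomputable section

variable {T : TSite}

/-- A morphism defined by linear maps of the sections. -/
def mkHom {M N : TD T} (u : ∀ X : T.C, M.pre.S X →ₗ[ℂ] N.pre.S X)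
    (h : ∀ {X Y : T.C} (e : Arr T X Y) (x : M.pre.S X),
      u Y (M.pre.ap e x) = N.pre.ap e (u X x)) : M ⟶ N :=
  ObjectProperty.homMk (Paths.liftNatTrans (V := Vx T) (F := M.pre.F) (G := N.pre.F)
    (fun X => (ModuleCat.ofHom (u X) : M.pre.o X ⟶ N.pre.o X))
    (fun {X Y} (e : Arr T X Y) => by
      apply ModuleCat.hom_ext
      apply LinearMap.ext
      intro x
      exact h e x))

theorem hm_mkHom {M N : TD T} (u : ∀ X : T.C, M.pre.S X →ₗ[ℂ] N.pre.S X)
    (h : ∀ {X Y : T.C} (e : Arr T X Y) (x : M.pre.S X),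
      u Y (M.pre.ap e x) = N.pre.ap e (u X x)) (X : T.C) (x : M.pre.S X) :
    TD.hm (mkHom u h) X x = u X x := rfl

section DS

variable {V W : ℤ → Type} [∀ i, AddCommGroup (V i)] [∀ i, Module ℂ (V i)]
  [∀ i, AddCommGroup (W i)] [∀ i, Module ℂ (W i)]

theorem pc_sh {n : ℤ} (u : ∀ i j, i + n = j → V i →ₗ[ℂ] W j) {i j : ℤ} (h : i + n = j)
    (x : DS V) : pc W j (sh n u x) = u i j h (pc V i x) := by
  refine ds_fun (u := (pc W j).comp (sh n u)) (v := (u i j h).comp (pc V i)) (fun k x => ?_) x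
  rw [LinearMap.comp_apply, LinearMap.comp_apply]
  by_cases hk : k = i
  · subst hk
    rw [sh_io n u h, pc_io, pc_io]
  · rw [sh_io n u (rfl : k + n = k + n), pc_io_ne hk, pc_io_ne (fun e => hk (by omega)), map_zero]

theorem pc_dm (u : ∀ i, V i →ₗ[ℂ] W i) (i : ℤ) (x : DS V) :
    pc W i (dm u x) = u i (pc V i x) := by
  refine ds_fun (u := (pc W i).comp (dm u)) (v := (u i).comp (pc V i)) (fun k x => ?_) x
  rw [LinearMap.comp_apply, LinearMap.comp_apply, dm_io]
  by_cases hk : k = i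
  · subst hk
    rw [pc_io, pc_io]
  · rw [pc_io_ne hk, pc_io_ne hk, map_zero]

theorem io_pc {i : ℤ} {x : DS V} (hx : x ∈ gs V i) : io V i (pc V i x) = x := pj_same hx

end DS

/-! ### The comparison of `toCx (ofCx K)` with `K` -/

section Iso

variable (K : CochainComplex (TD T) ℤ)

theorem val_ap (m : ℤ) {X Y : T.C} (e : Arr T X Y) (x : ((ofCx K).pre m).S X) :
    (ofCx K).val m Y (((ofCx K).pre m).ap e x) = tA K e ((ofCx K).val m X x) := by
  cases e with
  | tr φ => rfl
  | fn a => rfl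
  | vf v => rfl

/-- The comparison map. -/
def toT (m : ℤ) : (ofCx K).term m ⟶ K.X m :=
  mkHom (M := (ofCx K).term m) (N := K.X m) (fun X => (pc (SS K X) m).comp ((ofCx K).val m X))
    (fun {X Y} e x => (congrArg (pc (SS K Y) m) (val_ap K m e x)).trans
      (pc_dm (V := SS K X) (W := SS K Y) (fun i => apL (K.X i).pre e) m ((ofCx K).val m X x)))

/-- The inverse of the comparison map. -/
def frT (m : ℤ) : K.X m ⟶ (ofCx K).term m :=
  mkHom (M := K.X m) (N := (ofCx K).term m)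
    (fun X => (io (SS K X) m).codRestrict (gs (SS K X) m) (io_mem m))
    (fun {X Y} e x => (ofCx K).val_inj (by
      have h1 := val_ap K m e ((io (SS K X) m).codRestrict (gs (SS K X) m) (io_mem m) x)
      refine Eq.trans ?_ h1.symm
      exact (tA_io K e m x).symm))

theorem hm_toT (m : ℤ) (X : T.C) (x : ((ofCx K).pre m).S X) :
    TD.hm (toT K m) X x = pc (SS K X) m ((ofCx K).val m X x) := rfl

theorem val_frT (m : ℤ) (X : T.C) (x : SS K X m) :
    (ofCx K).val m X (TD.hm (frT K m) X x) = io (SS K X) m x := rfl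

theorem toT_frT (m : ℤ) : toT K m ≫ frT K m = 𝟙 ((ofCx K).term m) := by
  apply GTD.homOf_ext
  intro X x
  exact io_pc ((ofCx K).val_mem m X x)

theorem frT_toT (m : ℤ) : frT K m ≫ toT K m = 𝟙 (K.X m) := by
  apply Br.TD_hom_ext
  intro X x
  exact pc_io (V := SS K X) m x

/-- The comparison isomorphism in degree `m`. -/
def isoT (m : ℤ) : (ofCx K).term m ≅ K.X m := ⟨toT K m, frT K m, toT_frT K m, frT_toT K m⟩

/-- The comparison isomorphism. -/
def isoTo : GTD.cc (ofCx K) ≅ K :=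
  HomologicalComplex.Hom.isoOfComponents (fun m => (isoT K m : (GTD.cc (ofCx K)).X m ≅ K.X m))
    (fun i j h => by
      have h' : i + 1 = j := h
      change toT K i ≫ K.d i j = (GTD.cc (ofCx K)).d i j ≫ toT K j
      rw [GTD.cc_d _ i j h']
      apply Br.TD_hom_ext
      intro X x
      exact (pc_sh (V := SS K X) (W := SS K X) (fun i j _ => dC K X i j) h'
        ((ofCx K).val i X x)).symm)

theorem isoTo_hom_f (m : ℤ) : (isoTo K).hom.f m = toT K m := rfl

theorem isoTo_inv_f (m : ℤ) : (isoTo K).inv.f m = frT K m := rfl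

end Iso

section Nat

variable {K L : CochainComplex (TD T) ℤ}

/-- The comparison isomorphism is natural on cochains. -/
theorem isoTo_nat {n : ℤ} (z : Cochain K L n) :
    (GTD.toCo n (ofCo n z)).comp (Cochain.ofHom (isoTo L).hom) (add_zero n) =
      (Cochain.ofHom (isoTo K).hom).comp z (zero_add n) := by
  ext p q h
  rw [Cochain.comp_zero_cochain_v, Cochain.zero_cochain_comp_v, Cochain.ofHom_v, Cochain.ofHom_v]
  apply Br.TD_hom_ext
  intro X x
  exact pc_sh (V := SS K X) (W := SS L X) (cC z X) h ((ofCx K).val p X x)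

theorem isoTo_nat' {n : ℤ} (z : Cochain K L n) :
    z.comp (Cochain.ofHom (isoTo L).inv) (add_zero n) =
      (Cochain.ofHom (isoTo K).inv).comp (GTD.toCo n (ofCo n z)) (zero_add n) := by
  ext p q h
  rw [Cochain.comp_zero_cochain_v, Cochain.zero_cochain_comp_v, Cochain.ofHom_v, Cochain.ofHom_v]
  change z.v p q h ≫ frT L q = frT K p ≫ GTD.coV (ofCo n z) p q h
  apply Br.TD_hom_ext
  intro X x
  apply (ofCx L).val_inj
  exact (tC_io z X h x).symm

end Nat

/-- An isomorphism of complexes is a quasi-isomorphism. -/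
theorem qis_iso {K L : CochainComplex (TD T) ℤ} (e : K ≅ L) :
    Cx.qis T (X := K) (Y := L) e.hom := by
  have h1 : ∀ (X : T.C) (i : ℤ) (x : SS K X i),
      TD.hm (e.inv.f i) X (TD.hm (e.hom.f i) X x) = x := by
    intro X i x
    have h : e.hom.f i ≫ e.inv.f i = 𝟙 (K.X i) := by
      rw [← HomologicalComplex.comp_f, e.hom_inv_id, HomologicalComplex.id_f]
    exact congrArg (fun u => TD.hm (M := K.X i) (N := K.X i) u X x) h
  have h2 : ∀ (X : T.C) (i : ℤ) (x : SS L X i),
      TD.hm (e.hom.f i) X (TD.hm (e.inv.f i) X x) = x := by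
    intro X i x
    have h : e.inv.f i ≫ e.hom.f i = 𝟙 (L.X i) := by
      rw [← HomologicalComplex.comp_f, e.inv_hom_id, HomologicalComplex.id_f]
    exact congrArg (fun u => TD.hm (M := L.X i) (N := L.X i) u X x) h
  have h3 : ∀ (X : T.C) (i j : ℤ) (x : SS L X i),
      TD.hm (K.d i j) X (TD.hm (e.inv.f i) X x) = TD.hm (e.inv.f j) X (TD.hm (L.d i j) X x) := by
    intro X i j x
    exact congrArg (fun u => TD.hm (M := L.X i) (N := K.X j) u X x) (e.inv.comm i j)
  intro X i j k hij hjk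
  refine ⟨?_, ?_⟩
  · rintro x - ⟨y, hy⟩
    refine ⟨TD.hm (e.inv.f i) X y, (h3 X i j y).trans ?_⟩
    refine Eq.trans ?_ (h1 X j x)
    exact congrArg (TD.hm (e.inv.f j) X) hy
  · intro y hy
    refine ⟨TD.hm (e.inv.f j) X y, (h3 X j k y).trans ?_, 0, ?_⟩
    · refine (congrArg (TD.hm (e.inv.f k) X) hy).trans ?_
      exact map_zero (hmL (e.inv.f k) X)
    · have h4 : Cx.hm (K := K) (L := L) e.hom X j (TD.hm (e.inv.f j) X y) = y := h2 X j y
      rw [h4, sub_self]
      exact map_zero (dC L X i j)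

theorem ofCo_gdl {K L : CochainComplex (TD T) ℤ} (m n : ℤ) (α : Cochain K L m) :
    ofCo n (δ m n α) = gdl m n (ofCo m α) := by
  by_cases h : m + 1 = n
  · rw [gdl_eq h, ofCo_dl h]
  · rw [gdl_ne h, δ_shape m n h, map_zero]

/-- The DG functor from complexes. -/
def ofD (T : TSite) : DGF (cxc T) (gtc T) where
  obj K := ofCx K
  map n := ofCo n
  map_one K := ofCo_one K
  map_comp h α β := ofCo_cmp h α β
  map_d {K L} m n α := ofCo_gdl (K := K) (L := L) m n α

/-- The natural transformation from `toD ∘ ofD` to the identity. -/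
def natTo (T : TSite) : ((ofD T).comp (toD T)).z0 ⟶ 𝟭 (Z0 (cxc T)) :=
  natT (Φ := (ofD T).comp (toD T)) (Ψ := DGF.id (cxc T))
    (fun K => Cochain.ofHom (isoTo K).hom) (fun K => δ_ofHom (isoTo K).hom)
    (fun {K L} f _ => isoTo_nat (K := K) (L := L) f)

/-- The natural transformation from the identity to `toD ∘ ofD`. -/
def natFr (T : TSite) : 𝟭 (Z0 (cxc T)) ⟶ ((ofD T).comp (toD T)).z0 :=
  natT (Φ := DGF.id (cxc T)) (Ψ := (ofD T).comp (toD T))
    (fun K => Cochain.ofHom (isoTo K).inv) (fun K => δ_ofHom (isoTo K).inv)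
    (fun {K L} f _ => isoTo_nat' (K := K) (L := L) f)

theorem xqis_natTo (K : Z0 (cxc T)) : xqis T ((natTo T).app K) := by
  have h : zhom ((natTo T).app K) = (isoTo (zcx K)).hom :=
    Cochain.ofHom_injective (ofHom_zhom ((natTo T).app K))
  unfold xqis
  rw [h]
  exact qis_iso (isoTo (zcx K))

theorem xqis_natFr (K : Z0 (cxc T)) : xqis T ((natFr T).app K) := by
  have h : zhom ((natFr T).app K) = (isoTo (zcx K)).inv :=
    Cochain.ofHom_injective (ofHom_zhom ((natFr T).app K))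
  unfold xqis
  rw [h]
  exact qis_iso (isoTo (zcx K)).symm

theorem natW_ofD (T : TSite) :
    NatW (xqis T) ((ofD T).comp (toD T)).z0 (𝟭 (Z0 (cxc T))) := ⟨natTo T, xqis_natTo⟩

theorem natW_ofD' (T : TSite) :
    NatW (xqis T) (𝟭 (Z0 (cxc T))) ((ofD T).comp (toD T)).z0 := ⟨natFr T, xqis_natFr⟩

/-! ### Quasi-isomorphisms -/

theorem tC_ofHom {K L : CochainComplex (TD T) ℤ} (f : K ⟶ L) (X : T.C) (i : ℤ) (x : SS K X i) :
    tC (Cochain.ofHom f) X (io (SS K X) i x) = io (SS L X) i (TD.hm (f.f i) X x) := by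
  rw [tC_io _ X (add_zero i), Cochain.ofHom_v]

theorem hom_ofHom {K L : CochainComplex (TD T) ℤ} {f : K ⟶ L} {X : T.C}
    (u : GD.Hom ((ofCx K).F X) ((ofCx L).F X)) (hu : u.f = tC (Cochain.ofHom f) X) (m : ℤ)
    (h : St.HIso (fun x : SS K X (m - 1) => TD.hm (K.d (m - 1) m) X x)
      (fun x : SS K X m => TD.hm (K.d m (m + 1)) X x)
      (fun x : SS L X (m - 1) => TD.hm (L.d (m - 1) m) X x)
      (fun x : SS L X m => TD.hm (L.d m (m + 1)) X x)
      (fun x : SS K X m => TD.hm (f.f m) X x)) :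
    (∀ x ∈ ((ofCx K).F X).gr m, ((ofCx K).F X).d x = 0 →
      (∃ y ∈ ((ofCx L).F X).gr (m - 1), ((ofCx L).F X).d y = u.f x) →
      ∃ x' ∈ ((ofCx K).F X).gr (m - 1), ((ofCx K).F X).d x' = x) ∧
    (∀ y ∈ ((ofCx L).F X).gr m, ((ofCx L).F X).d y = 0 →
      ∃ x ∈ ((ofCx K).F X).gr m, ((ofCx K).F X).d x = 0 ∧
        ∃ y' ∈ ((ofCx L).F X).gr (m - 1), ((ofCx L).F X).d y' = y - u.f x) := by
  have hd : ∀ (M : CochainComplex (TD T) ℤ) (i j : ℤ) (h : i + 1 = j) (x : SS M X i),
      ((ofCx M).F X).d (io (SS M X) i x) = io (SS M X) j (TD.hm (M.d i j) X x) :=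
    fun M i j h x => tD_io M h x
  have hu' : ∀ x : SS K X m, u.f (io (SS K X) m x) = io (SS L X) m (TD.hm (f.f m) X x) :=
    fun x => (congrArg (fun g : TS K X →ₗ[ℂ] TS L X => g (io (SS K X) m x)) hu).trans
      (tC_ofHom f X m x)
  obtain ⟨h1, h2⟩ := h
  refine ⟨?_, ?_⟩
  · rintro _ ⟨x, rfl⟩ hx ⟨_, ⟨y, rfl⟩, hy⟩
    have hx2 := (hd K m (m + 1) rfl x).symm.trans hx
    have hy2 := ((hd L (m - 1) m (by ring) y).symm.trans hy).trans (hu' x)
    obtain ⟨x', hx'⟩ := h1 x (io_inj (hx2.trans (map_zero _).symm)) ⟨y, io_inj hy2⟩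
    exact ⟨_, ⟨x', rfl⟩, (hd K (m - 1) m (by ring) x').trans (congrArg _ hx')⟩
  · rintro _ ⟨y, rfl⟩ hy
    have hy2 := (hd L m (m + 1) rfl y).symm.trans hy
    obtain ⟨x, hx, y', hy'⟩ := h2 y (io_inj (hy2.trans (map_zero _).symm))
    refine ⟨_, ⟨x, rfl⟩, ?_, _, ⟨y', rfl⟩, ?_⟩
    · exact (hd K m (m + 1) rfl x).trans ((congrArg _ hx).trans (map_zero _))
    · refine (hd L (m - 1) m (by ring) y').trans ?_
      refine Eq.trans ?_ (congrArg (fun w => io (SS L X) m y - w) (hu' x)).symm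
      exact (congrArg _ hy').trans (map_sub (io (SS L X) m) _ _)

/-- `ofD` preserves quasi-isomorphisms. -/
theorem gqis_ofD {K L : Z0 (cxc T)} (a : K ⟶ L) (h : xqis T a) : gqis T ((ofD T).z0.map a) := by
  intro X m
  refine hom_ofHom (f := zhom a) (gh ((ofD T).z0.map a) X) ?_ m ?_
  · have h1 : Cochain.ofHom (zhom a) = zf a := ofHom_zhom a
    rw [h1]
    rfl
  · exact h X (m - 1) m (m + 1) (by ring) rfl

/-! ### The homogeneous projections -/

/-- The homogeneous projections. -/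
def decX (K : CochainComplex (TD T) ℤ) (X : T.C) : (H697.dgm (ofCx K) X).Dec where
  ρ i :=
    { toFun := pj (SS K X) i
      map_add' := map_add _
      map_smul' := fun a x => pj_dm (V := SS K X) (W := SS K X) i x }
  mem i x := pj_mem (V := SS K X) i x
  same i x hx := pj_same (V := SS K X) hx
  ne i j x hx h := pj_ne (V := SS K X) hx h
  sum x := sum_pj (V := SS K X) x

theorem decX_tr (K : CochainComplex (TD T) ℤ) {X Y : T.C} (φ : X ⟶ Y) (i : ℤ)
    (x : ((ofCx K).F X).V) : (decX K Y).ρ i (((ofCx K).tr φ).f x) =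
      ((ofCx K).tr φ).f ((decX K X).ρ i x) := pj_dm (V := SS K X) (W := SS K Y) i x

theorem decX_vf (K : CochainComplex (TD T) ℤ) {X : T.C} (v : (T.A X).Der) (i : ℤ)
    (x : ((ofCx K).F X).V) : (decX K X).ρ i ((ofCx K).vf X v x) =
      (ofCx K).vf X v ((decX K X).ρ i x) := pj_dm (V := SS K X) (W := SS K X) i x

theorem decX_coch {K L : CochainComplex (TD T) ℤ} {n : ℤ} (z : Cochain K L n) (X : T.C)
    {i j : ℤ} (h : i + n = j) (x : ((ofCx K).F X).V) :
    (decX L X).ρ j ((ofCo n z).f X x) = (ofCo n z).f X ((decX K X).ρ i x) :=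
  pj_sh (V := SS K X) (W := SS L X) h x

/-- The sections are the direct sum of the homogeneous parts. -/
theorem internal_gs (V : ℤ → Type) [∀ i, AddCommGroup (V i)] [∀ i, Module ℂ (V i)] :
    DirectSum.IsInternal (gs V) := by
  classical
  have e : ∀ (x : DirectSum ℤ fun i => gs V i) (i : ℤ),
      pj V i (DirectSum.coeAddMonoidHom (gs V) x) = (x i : DS V) := by
    intro x i
    induction x using DirectSum.induction_on with
    | zero => simp
    | of j y =>
      rw [DirectSum.coeAddMonoidHom_of]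
      by_cases h : j = i
      · subst h
        rw [pj_same y.2, DirectSum.of_eq_same]
      · rw [pj_ne y.2 h, DirectSum.of_eq_of_ne _ _ _ (Ne.symm h)]
        rfl
    | add x y hx hy =>
      rw [map_add, map_add, hx, hy, DirectSum.add_apply]
      rfl
  refine ⟨fun x y h => ?_, fun x => ?_⟩
  · refine DFinsupp.ext fun i => Subtype.ext ?_
    have h1 := e x i
    have h2 := e y i
    rw [h] at h1
    exact h1.symm.trans h2
  · obtain ⟨s, hs⟩ := sum_pj x
    refine ⟨∑ i ∈ s, DirectSum.of (fun i => gs V i) i ⟨pj V i x, pj_mem i x⟩, ?_⟩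
    rw [map_sum]
    conv_rhs => rw [hs]
    exact Finset.sum_congr rfl fun i _ => DirectSum.coeAddMonoidHom_of _ i _

theorem internal_ofCx (K : CochainComplex (TD T) ℤ) (X : T.C) :
    DirectSum.IsInternal ((ofCx K).F X).gr := internal_gs (SS K X)

end

end Vale.Agent.P286.H621
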