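import Vale.Agent.P286.H459.YP
import Vale.Agent.P286.H274.PresF
import Vale.Agent.P286.H549.LTw
import Vale.Agent.P286.H652.MidI
import Vale.Agent.P286.H987.E0S

/-!
# The equivalence for two groups, from the two remaining natural quasi-isomorphisms
-/

namespace Vale.Agent.P286.H621

open CategoryTheory
open Vale.Agent.P286.St Vale.Agent.P286.Gen Vale.Agent.P286.H295 Vale.Agent.P286.H847
  Vale.Agent.P286.H64 Vale.Agent.P286.H353 Vale.Agent.P286.H697 Vale.Agent.P286.H761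
  Vale.Agent.P286.H274 Vale.Agent.P286.H549 Vale.Agent.P286.H652
  Vale.Agent.P286.H459 Vale.Agent.P286.H710 Vale.Agent.P286.H987 Vale.Agent.P286.H341

noncomputable section

section Rep

variable {N : ℕ} {Γ : Gps N} [hs : Algebra.Smooth ℂ (Of Γ)] {I : Type} [Fintype I]
  [DecidableEq I] (R : Rpn Γ I) (n : ℕ)

/-- The two natural quasi-isomorphisms. -/
structure Rest : Prop where
  zM : NatW (gqis (BGT Γ)) ((XiG (gauX n R)).z0 ⋙ (Yd R n).z0) (MMR R)
  zL : Zig (LMod.W n) (((((Yd R n).comp (toD (BGT Γ))).comp (ofD (BGT Γ))).comp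
    (XG (gauX n R))).z0) (LTw n R)

variable {R n}

/-- The parts of the assembly. -/
def Rest.bp (h : Rest R n) (hE0 : GD.Qis (R.evU n)) : BParts (gauX n R) where
  Y := Yd R n
  M := MMR R
  L := LTw n R
  cart := Yd_cart R n
  presX := presXi (gauX n R) (hpi_R R n hE0 (H652.strBG Γ))
  presY := Yd_qis R n
  zM := h.zM
  zM' := zMR R
  zL := h.zL
  zL' := zig_LTw hE0

end Rep

/-- The theorem for two groups with the comparison data. -/
theorem dgs_of_e0d {N N' : ℕ} {Γ : Gps N} {Γ' : Gps N'} {I I' : Type} [Fintype I] [DecidableEq I]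
    [Fintype I'] [DecidableEq I'] {S : H374.Dat I} {S' : H374.Dat I'} {n : ℕ}
    (E : E0D Γ S n) (E' : E0D Γ' S' n)
    (h : ∀ [Algebra.Smooth ℂ (Of Γ)], Rest E.P.R n)
    (h' : ∀ [Algebra.Smooth ℂ (Of Γ')], Rest E'.P.R n) : DGS (BGT Γ) (BGT Γ') := by
  have := smooth_Of E.prime
  have := smooth_Of E'.prime
  exact dgs_of_bparts (h.bp (e0 E)) (h'.bp (e0 E'))

/-- The remaining statement. -/
def Rst : Prop := ∀ {N : ℕ} {Γ : Gps N} [Algebra.Smooth ℂ (Of Γ)] {I : Type} [Fintype I]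
  [DecidableEq I] (R : Rpn Γ I) (n : ℕ), GD.Qis (R.evU n) → Rest R n

/-- The symplectic and the odd orthogonal group. -/
theorem dgs_sp_so (h : Rst) (n : ℕ) : DGS (BGT (GSp (2 * n))) (BGT (GSo (2 * n + 1))) :=
  dgs_of_e0d (E0D.sp n) (E0D.so n) (h _ n (e0_sp n)) (h _ n (e0_so n))

/-- The symplectic and the odd spin group. -/
theorem dgs_sp_spin (h : Rst) {n N : ℕ} [NeZero N] (S : CSys (2 * n + 1) N) (hn : 0 < n) :
    DGS (BGT (GSp (2 * n))) (BGT (spin S)) :=
  dgs_of_e0d (E0D.sp n) (E0D.spinS S hn) (h _ n (e0_sp n)) (h _ n (e0_spinS S hn))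

end

end Vale.Agent.P286.H621
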