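import Vale.Agent.P286.H847.Gtd

/-!
# The family of graded differential spaces defined by a complex of twisted `D`-modules
-/

namespace Vale.Agent.P286.H621

open CategoryTheory St CochainComplex.HomComplex
open Vale.Agent.P286.H847

noncomputable section

/-! ### Linear maps between direct sums -/

section DS

variable {V W U : ℤ → Type} [∀ i, AddCommGroup (V i)] [∀ i, Module ℂ (V i)]
  [∀ i, AddCommGroup (W i)] [∀ i, Module ℂ (W i)] [∀ i, AddCommGroup (U i)] [∀ i, Module ℂ (U i)]

/-- The direct sum. -/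
abbrev DS (V : ℤ → Type) [∀ i, AddCommGroup (V i)] [∀ i, Module ℂ (V i)] : Type :=
  DirectSum ℤ V

/-- The inclusion of a summand. -/
abbrev io (V : ℤ → Type) [∀ i, AddCommGroup (V i)] [∀ i, Module ℂ (V i)] (i : ℤ) :
    V i →ₗ[ℂ] DS V := DirectSum.lof ℂ ℤ V i

/-- The projection to a summand. -/
abbrev pc (V : ℤ → Type) [∀ i, AddCommGroup (V i)] [∀ i, Module ℂ (V i)] (i : ℤ) :
    DS V →ₗ[ℂ] V i := DirectSum.component ℂ ℤ V i

theorem pc_io (i : ℤ) (x : V i) : pc V i (io V i x) = x := DirectSum.component.lof_self ℂ i x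

theorem pc_io_ne {i j : ℤ} (h : i ≠ j) (x : V i) : pc V j (io V i x) = 0 :=
  (DirectSum.component.of ℂ j i x).trans (dif_neg h)

theorem io_inj {i : ℤ} {x y : V i} (h : io V i x = io V i y) : x = y := by
  rw [← pc_io i x, h, pc_io]

/-- Linear maps which agree on the summands are equal. -/
theorem ds_ext {Z : Type} [AddCommGroup Z] [Module ℂ Z] {u v : DS V →ₗ[ℂ] Z}
    (h : ∀ i x, u (io V i x) = v (io V i x)) : u = v :=
  DirectSum.linearMap_ext ℂ fun i => LinearMap.ext fun x => h i x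

theorem ds_fun {Z : Type} [AddCommGroup Z] [Module ℂ Z] {u v : DS V →ₗ[ℂ] Z}
    (h : ∀ i x, u (io V i x) = v (io V i x)) (x : DS V) : u x = v x := by
  rw [ds_ext h]

/-- The linear map of degree `n` defined by its components. -/
def sh (n : ℤ) (u : ∀ i j, i + n = j → V i →ₗ[ℂ] W j) : DS V →ₗ[ℂ] DS W :=
  DirectSum.toModule ℂ ℤ (DS W) fun i => (io W (i + n)).comp (u i (i + n) rfl)

theorem sh_io (n : ℤ) (u : ∀ i j, i + n = j → V i →ₗ[ℂ] W j) {i j : ℤ} (h : i + n = j) (x : V i) :
    sh n u (io V i x) = io W j (u i j h x) := by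
  subst h
  exact DirectSum.toModule_lof ℂ i x

/-- The linear map defined by a family of maps. -/
def dm (u : ∀ i, V i →ₗ[ℂ] W i) : DS V →ₗ[ℂ] DS W :=
  DirectSum.toModule ℂ ℤ (DS W) fun i => (io W i).comp (u i)

theorem dm_io (u : ∀ i, V i →ₗ[ℂ] W i) (i : ℤ) (x : V i) : dm u (io V i x) = io W i (u i x) :=
  DirectSum.toModule_lof ℂ i x

/-- The homogeneous elements. -/
def gs (V : ℤ → Type) [∀ i, AddCommGroup (V i)] [∀ i, Module ℂ (V i)] (i : ℤ) :
    Submodule ℂ (DS V) := LinearMap.range (io V i)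

theorem io_mem (i : ℤ) (x : V i) : io V i x ∈ gs V i := ⟨x, rfl⟩

theorem sh_mem {n : ℤ} {u : ∀ i j, i + n = j → V i →ₗ[ℂ] W j} {i j : ℤ} (h : i + n = j)
    {x : DS V} (hx : x ∈ gs V i) : sh n u x ∈ gs W j := by
  obtain ⟨x, rfl⟩ := hx
  rw [sh_io n u h]
  exact io_mem _ _

theorem dm_mem {u : ∀ i, V i →ₗ[ℂ] W i} {i : ℤ} {x : DS V} (hx : x ∈ gs V i) :
    dm u x ∈ gs W i := by
  obtain ⟨x, rfl⟩ := hx
  rw [dm_io]
  exact io_mem _ _

/-- The projection to the homogeneous elements. -/
def pj (V : ℤ → Type) [∀ i, AddCommGroup (V i)] [∀ i, Module ℂ (V i)] (i : ℤ) :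
    DS V →ₗ[ℂ] DS V := (io V i).comp (pc V i)

theorem pj_mem (i : ℤ) (x : DS V) : pj V i x ∈ gs V i := io_mem _ _

theorem pj_io (i : ℤ) (x : V i) : pj V i (io V i x) = io V i x :=
  congrArg (io V i) (pc_io i x)

theorem pj_io_ne {i j : ℤ} (h : j ≠ i) (x : V j) : pj V i (io V j x) = 0 := by
  change io V i (pc V i (io V j x)) = 0
  rw [pc_io_ne h, map_zero]

theorem pj_same {i : ℤ} {x : DS V} (hx : x ∈ gs V i) : pj V i x = x := by
  obtain ⟨x, rfl⟩ := hx
  exact pj_io i x

theorem pj_ne {i j : ℤ} {x : DS V} (hx : x ∈ gs V j) (h : j ≠ i) : pj V i x = 0 := by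
  obtain ⟨x, rfl⟩ := hx
  exact pj_io_ne h x

theorem pj_pj (i : ℤ) (x : DS V) : pj V i (pj V i x) = pj V i x := pj_same (pj_mem i x)

theorem pj_pj_ne {i j : ℤ} (h : j ≠ i) (x : DS V) : pj V i (pj V j x) = 0 :=
  pj_ne (pj_mem j x) h

/-- Every element is the sum of its homogeneous components. -/
theorem sum_pj (x : DS V) : ∃ s : Finset ℤ, x = ∑ i ∈ s, pj V i x := by
  classical
  induction x using DirectSum.induction_on with
  | zero => exact ⟨∅, by simp⟩
  | of i y =>
    refine ⟨{i}, ?_⟩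
    rw [Finset.sum_singleton]
    exact (pj_io i y).symm
  | add x y hx hy =>
    obtain ⟨s, hs⟩ := hx
    obtain ⟨t, ht⟩ := hy
    refine ⟨s ∪ t, ?_⟩
    have key : ∀ (z : DS V) (s t : Finset ℤ), z = ∑ i ∈ s, pj V i z → s ⊆ t →
        z = ∑ i ∈ t, pj V i z := by
      intro z s t h hst
      refine h.trans (Finset.sum_subset hst fun i _ hi => ?_)
      rw [h, map_sum]
      exact Finset.sum_eq_zero fun j hj => pj_pj_ne (fun e : j = i => hi (by rwa [← e])) z
    have h1 := key x s (s ∪ t) hs Finset.subset_union_left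
    have h2 := key y t (s ∪ t) ht Finset.subset_union_right
    simp only [map_add, Finset.sum_add_distrib]
    rw [← h1, ← h2]

theorem pj_sh {n : ℤ} {u : ∀ i j, i + n = j → V i →ₗ[ℂ] W j} {i j : ℤ} (h : i + n = j)
    (x : DS V) : pj W j (sh n u x) = sh n u (pj V i x) := by
  refine ds_fun (u := (pj W j).comp (sh n u)) (v := (sh n u).comp (pj V i)) (fun k x => ?_) x
  rw [LinearMap.comp_apply, LinearMap.comp_apply, sh_io n u (rfl : k + n = k + n)]
  by_cases hk : k = i
  · subst hk
    rw [pj_io, sh_io n u h]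
    subst h
    exact pj_io _ _
  · rw [pj_io_ne hk, map_zero]
    exact pj_io_ne (fun e => hk (by omega)) _

theorem pj_dm {u : ∀ i, V i →ₗ[ℂ] W i} (i : ℤ) (x : DS V) :
    pj W i (dm u x) = dm u (pj V i x) := by
  refine ds_fun (u := (pj W i).comp (dm u)) (v := (dm u).comp (pj V i)) (fun k x => ?_) x
  rw [LinearMap.comp_apply, LinearMap.comp_apply, dm_io]
  by_cases hk : k = i
  · subst hk
    rw [pj_io, pj_io, dm_io]
  · rw [pj_io_ne hk, pj_io_ne hk, map_zero]

end DS

variable {T : TSite}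

/-- The linear map of an arrow. -/
def apL (M : Pre T) {X Y : T.C} (e : Arr T X Y) : M.S X →ₗ[ℂ] M.S Y where
  toFun := M.ap e
  map_add' := M.ap_add e
  map_smul' c x := M.ap_smul e c x

/-- The linear map on sections of a morphism. -/
def hmL {M N : TD T} (u : M ⟶ N) (X : T.C) : M.pre.S X →ₗ[ℂ] N.pre.S X where
  toFun := TD.hm u X
  map_add' := TD.hm_add u X
  map_smul' c x := mh_smul _ c x

theorem hmL_apL {M N : TD T} (u : M ⟶ N) {X Y : T.C} (e : Arr T X Y) (x : M.pre.S X) :
    hmL u Y (apL M.pre e x) = apL N.pre e (hmL u X x) := TD.hm_ap u e x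

/-- The relations. -/
theorem isTD (M : TD T) : IsTD T M.pre := ObjectProperty.FullSubcategory.property M

section Obj

variable (K : CochainComplex (TD T) ℤ)

/-- The sections of degree `i`. -/
abbrev SS (X : T.C) (i : ℤ) : Type := (K.X i).pre.S X

/-- The sections. -/
abbrev TS (X : T.C) : Type := DS (SS K X)

/-- The linear map of an arrow. -/
def tA {X Y : T.C} (e : Arr T X Y) : TS K X →ₗ[ℂ] TS K Y := dm fun i => apL (K.X i).pre e

theorem tA_io {X Y : T.C} (e : Arr T X Y) (i : ℤ) (x : SS K X i) :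
    tA K e (io (SS K X) i x) = io (SS K Y) i ((K.X i).pre.ap e x) :=
  dm_io _ i x

/-- The components of the differential. -/
def dC (X : T.C) (i j : ℤ) : SS K X i →ₗ[ℂ] SS K X j := hmL (K.d i j) X

/-- The differential. -/
def tD (X : T.C) : TS K X →ₗ[ℂ] TS K X := sh 1 fun i j _ => dC K X i j

theorem tD_io {X : T.C} {i j : ℤ} (h : i + 1 = j) (x : SS K X i) :
    tD K X (io (SS K X) i x) = io (SS K X) j (TD.hm (K.d i j) X x) :=
  sh_io 1 _ h x

theorem d_d (X : T.C) (i j k : ℤ) (x : SS K X i) : TD.hm (K.d j k) X (TD.hm (K.d i j) X x) = 0 := by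
  have h := K.d_comp_d i j k
  exact congrArg (fun u => TD.hm (M := K.X i) (N := K.X k) u X x) h

theorem tD_tD (X : T.C) (x : TS K X) : tD K X (tD K X x) = 0 := by
  refine ds_fun (u := (tD K X).comp (tD K X)) (v := 0) (fun i x => ?_) x
  rw [LinearMap.comp_apply, tD_io K rfl, tD_io K rfl, d_d, map_zero]
  rfl

theorem tD_tA {X Y : T.C} (e : Arr T X Y) (x : TS K X) :
    tD K Y (tA K e x) = tA K e (tD K X x) := by
  refine ds_fun (u := (tD K Y).comp (tA K e)) (v := (tA K e).comp (tD K X)) (fun i x => ?_) x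
  rw [LinearMap.comp_apply, LinearMap.comp_apply, tD_io K rfl, tA_io, tA_io, tD_io K rfl]
  exact congrArg _ (hmL_apL (M := K.X i) (N := K.X (i + 1)) (K.d i (i + 1)) e x)

theorem tA_trans {X Y : T.C} (φ : X ⟶ Y) (w : (T.A Y).Der) (k : ℕ) (c : Fin k → T.R Y)
    (v : Fin k → (T.A X).Der) (h : ∀ a, w (T.f φ a) = ∑ i, c i * T.f φ (v i a)) (x : TS K X) :
    tA K (.fn (T.dl φ)) (tA K (.vf w) (tA K (.tr φ) x)) =
      tA K (.fn (T.dl φ)) (∑ i, tA K (.fn (c i)) (tA K (.tr φ) (tA K (.vf (v i)) x))) -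
        T.s • tA K (.fn (w (T.dl φ))) (tA K (.tr φ) x) := by
  have h1 := ds_fun (u := ((tA K (.fn (T.dl φ))).comp (tA K (.vf w))).comp (tA K (.tr φ)))
    (v := (tA K (.fn (T.dl φ))).comp (∑ i, ((tA K (.fn (c i))).comp
      (tA K (.tr φ))).comp (tA K (.vf (v i)))) -
      T.s • (tA K (.fn (w (T.dl φ)))).comp (tA K (.tr φ))) (fun i x => by
        have h2 := congrArg (io (SS K Y) i)
          (((isTD (K.X i)).trans X Y φ).vf w k c v h x)
        rw [map_sub, map_smul] at h2
        simp only [LinearMap.sub_apply, LinearMap.smul_apply, LinearMap.comp_apply,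
          LinearMap.sum_apply, tA_io]
        refine h2.trans ?_
        congr 1
        rw [← map_sum]
        exact (tA_io K (.fn (T.dl φ)) i _).symm) x
  simp only [LinearMap.sub_apply, LinearMap.smul_apply, LinearMap.comp_apply,
    LinearMap.sum_apply] at h1
  exact h1

/-- The graded differential space of sections. -/
def ofF (X : T.C) : GD where
  V := TS K X
  d := tD K X
  dd := tD_tD K X
  gr i := gs (SS K X) i
  dgr _ _ hx := sh_mem rfl hx

/-- The family of graded differential spaces defined by a complex. -/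
def ofCx : GTD T where
  F X := ofF K X
  fn X a := tA K (.fn a)
  vf X v := tA K (.vf v)
  tr {X Y} φ := ⟨tA K (.tr φ), fun x => (tD_tA K (.tr φ) x).symm, fun _ _ hx => dm_mem hx⟩
  fn_gr _ _ _ _ hx := dm_mem hx
  vf_gr _ _ _ _ hx := dm_mem hx
  fn_d X a x := tD_tA K (.fn a) x
  vf_d X v x := tD_tA K (.vf v) x
  dmod X :=
    { const := fun c x => ds_fun (u := tA K (.fn (algebraMap ℂ (T.R X) c)))
        (v := c • LinearMap.id) (fun i x => by
          rw [tA_io, LinearMap.smul_apply, LinearMap.id_apply, ← map_smul]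
          exact congrArg _ (((isTD (K.X i)).dmod X).const c x)) x
      fn_add := fun a b x => ds_fun (u := tA K (.fn (a + b)))
        (v := tA K (.fn a) + tA K (.fn b)) (fun i x => by
          rw [LinearMap.add_apply, tA_io, tA_io, tA_io, ← map_add]
          exact congrArg _ (((isTD (K.X i)).dmod X).fn_add a b x)) x
      fn_mul := fun a b x => ds_fun (u := tA K (.fn (a * b)))
        (v := (tA K (.fn a)).comp (tA K (.fn b))) (fun i x => by
          rw [LinearMap.comp_apply, tA_io, tA_io, tA_io]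
          exact congrArg _ (((isTD (K.X i)).dmod X).fn_mul a b x)) x
      vf_add := fun v w x => ds_fun (u := tA K (.vf (v + w)))
        (v := tA K (.vf v) + tA K (.vf w)) (fun i x => by
          rw [LinearMap.add_apply, tA_io, tA_io, tA_io, ← map_add]
          exact congrArg _ (((isTD (K.X i)).dmod X).vf_add v w x)) x
      vf_smul := fun a v x => ds_fun (u := tA K (.vf (a • v)))
        (v := (tA K (.fn a)).comp (tA K (.vf v))) (fun i x => by
          rw [LinearMap.comp_apply, tA_io, tA_io, tA_io]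
          exact congrArg _ (((isTD (K.X i)).dmod X).vf_smul a v x)) x
      vf_fn := fun v a x => ds_fun (u := (tA K (.vf v)).comp (tA K (.fn a)))
        (v := tA K (.fn (v a)) + (tA K (.fn a)).comp (tA K (.vf v))) (fun i x => by
          rw [LinearMap.add_apply, LinearMap.comp_apply, LinearMap.comp_apply, tA_io, tA_io, tA_io,
            tA_io, tA_io, ← map_add]
          exact congrArg _ (((isTD (K.X i)).dmod X).vf_fn v a x)) x
      vf_lie := fun v w x => ds_fun (u := tA K (.vf ⁅v, w⁆))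
        (v := (tA K (.vf v)).comp (tA K (.vf w)) - (tA K (.vf w)).comp (tA K (.vf v)))
        (fun i x => by
          rw [LinearMap.sub_apply, LinearMap.comp_apply, LinearMap.comp_apply, tA_io, tA_io, tA_io,
            tA_io, tA_io, ← map_sub]
          exact congrArg _ (((isTD (K.X i)).dmod X).vf_lie v w x)) x }
  trans X Y φ :=
    { fn := fun a x => ds_fun (u := (tA K (.tr φ)).comp (tA K (.fn a)))
        (v := (tA K (.fn (T.f φ a))).comp (tA K (.tr φ))) (fun i x => by
          rw [LinearMap.comp_apply, LinearMap.comp_apply, tA_io, tA_io, tA_io, tA_io]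
          exact congrArg _ (((isTD (K.X i)).trans X Y φ).fn a x)) x
      vf := fun w k c v h x => tA_trans K φ w k c v h x }
  id X x := ds_fun (u := tA K (.tr (𝟙 X))) (v := LinearMap.id) (fun i x => by
    rw [tA_io]
    exact congrArg _ ((isTD (K.X i)).id X x)) x
  comp X Y Z φ ψ x := ds_fun (u := tA K (.tr (φ ≫ ψ)))
    (v := (tA K (.tr ψ)).comp (tA K (.tr φ))) (fun i x => by
      rw [LinearMap.comp_apply, tA_io, tA_io, tA_io]
      exact congrArg _ ((isTD (K.X i)).comp X Y Z φ ψ x)) x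
  cen X φ h x := ds_fun (u := tA K (.tr φ)) (v := LinearMap.id) (fun i x => by
    rw [tA_io]
    exact congrArg _ ((isTD (K.X i)).cen X φ h x)) x

end Obj

/-! ### Cochains -/

section Co

variable {K L M : CochainComplex (TD T) ℤ}

/-- The components of a cochain. -/
def cC {n : ℤ} (z : Cochain K L n) (X : T.C) (i j : ℤ) (h : i + n = j) :
    SS K X i →ₗ[ℂ] SS L X j := hmL (z.v i j h) X

/-- The linear map of a cochain. -/
def tC {n : ℤ} (z : Cochain K L n) (X : T.C) : TS K X →ₗ[ℂ] TS L X :=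
  sh n (cC z X)

theorem tC_io {n : ℤ} (z : Cochain K L n) (X : T.C) {i j : ℤ} (h : i + n = j)
    (x : SS K X i) :
    tC z X (io (SS K X) i x) =
      io (SS L X) j (TD.hm (z.v i j h) X x) :=
  sh_io n _ h x

theorem tC_tA {n : ℤ} (z : Cochain K L n) {X Y : T.C} (e : Arr T X Y) (x : TS K X) :
    tC z Y (tA K e x) = tA L e (tC z X x) := by
  refine ds_fun (u := (tC z Y).comp (tA K e)) (v := (tA L e).comp (tC z X)) (fun i x => ?_) x
  rw [LinearMap.comp_apply, LinearMap.comp_apply, tC_io z X rfl, tA_io, tA_io, tC_io z Y rfl]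
  exact congrArg _ (hmL_apL (z.v i (i + n) rfl) e x)

/-- The cochain defined by a cochain. -/
def ofCo (n : ℤ) : Cochain K L n →ₗ[ℂ] GTD.Coch (ofCx K) (ofCx L) n where
  toFun z :=
    { f := fun X => tC z X
      deg := fun _ _ _ hx => sh_mem rfl hx
      fn := fun X a x => tC_tA z (.fn a) x
      vf := fun X v x => tC_tA z (.vf v) x
      tr := fun φ x => tC_tA z (.tr φ) x }
  map_add' z w := GTD.Coch.ext' fun X x => ds_fun (u := tC (z + w) X)
    (v := tC z X + tC w X) (fun i x => by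
      rw [LinearMap.add_apply, tC_io _ X rfl, tC_io _ X rfl, tC_io _ X rfl, ← map_add]
      rfl) x
  map_smul' c z := GTD.Coch.ext' fun X x => ds_fun (u := tC (c • z) X)
    (v := c • tC z X) (fun i x => by
      rw [LinearMap.smul_apply, tC_io _ X rfl, tC_io _ X rfl, ← map_smul]
      rfl) x

theorem ofCo_f {n : ℤ} (z : Cochain K L n) (X : T.C) : (ofCo n z).f X = tC z X := rfl

theorem ofCo_one (K : CochainComplex (TD T) ℤ) :
    ofCo 0 (Cochain.ofHom (𝟙 K)) = GTD.Coch.one (ofCx K) :=
  GTD.Coch.ext' fun X x => ds_fun (u := tC (Cochain.ofHom (𝟙 K)) X) (v := LinearMap.id)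
    (fun i x => by
      rw [tC_io _ X (add_zero i), Cochain.ofHom_v]
      rfl) x

theorem ofCo_cmp {m n p : ℤ} (h : m + n = p) (z : Cochain K L m) (w : Cochain L M n) :
    ofCo p (z.comp w h) = (ofCo m z).cmp (ofCo n w) h :=
  GTD.Coch.ext' fun X x => ds_fun (u := tC (z.comp w h) X) (v := (tC w X).comp (tC z X))
    (fun i x => by
      rw [LinearMap.comp_apply, tC_io z X (rfl : i + m = i + m),
        tC_io w X (by omega : i + m + n = i + p), tC_io _ X (rfl : i + p = i + p),
        Cochain.comp_v z w h i (i + m) (i + p) rfl (by omega)]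
      rfl) x

theorem hm_δ {n : ℤ} (z : Cochain K L n) (X : T.C) (i : ℤ) (x : SS K X i) :
    TD.hm ((δ n (n + 1) z).v i (i + (n + 1)) rfl) X x =
      TD.hm (L.d (i + n) (i + (n + 1))) X (TD.hm (z.v i (i + n) rfl) X x) -
        (n.negOnePow : ℤ) • TD.hm (z.v (i + 1) (i + (n + 1)) (by omega)) X
          (TD.hm (K.d i (i + 1)) X x) := by
  rw [δ_v n (n + 1) rfl z i (i + (n + 1)) rfl (i + n) (i + 1) (by omega) rfl]
  rcases Int.even_or_odd n with hn | hn
  · rw [Int.negOnePow_odd _ hn.add_one, Units.neg_smul, one_smul, Int.negOnePow_even n hn,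
      Units.val_one, one_smul]
    exact (sub_eq_add_neg _ _).symm
  · rw [Int.negOnePow_even _ hn.add_one, one_smul, Int.negOnePow_odd n hn, Units.val_neg,
      Units.val_one, neg_smul, one_smul, sub_neg_eq_add]
    rfl

theorem ofCo_dl {n p : ℤ} (h : n + 1 = p) (z : Cochain K L n) :
    ofCo p (δ n p z) = (ofCo n z).dl h :=
  GTD.Coch.ext' fun X x => ds_fun (u := tC (δ n p z) X)
    (v := (tD L X).comp (tC z X) - (n.negOnePow : ℤ) • (tC z X).comp (tD K X))
    (fun i x => by
      subst h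
      simp only [LinearMap.sub_apply, LinearMap.smul_apply, LinearMap.comp_apply]
      rw [tC_io z X (rfl : i + n = i + n), tD_io L (by omega : i + n + 1 = i + (n + 1)),
        tD_io K (rfl : i + 1 = i + 1), tC_io z X (by omega : i + 1 + n = i + (n + 1)),
        tC_io _ X (rfl : i + (n + 1) = i + (n + 1)), hm_δ, map_sub, map_zsmul]) x

end Co

end

end Vale.Agent.P286.H621
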