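import Vale.Agent.P286.H867.Src
import Vale.Agent.P286.H549.XiQ

/-!
# Naturality of the map to the twisted total
-/

namespace Vale.Agent.P286.H621

open CategoryTheory TensorProduct
open Vale.Agent.P286.St Vale.Agent.P286.Gen Vale.Agent.P286.H295 Vale.Agent.P286.H847
  Vale.Agent.P286.H64 Vale.Agent.P286.H697 Vale.Agent.P286.H761
  Vale.Agent.P286.H549 Vale.Agent.P286.H710 Vale.Agent.P286.H867 Vale.Agent.P286.H987

noncomputable section

set_option linter.unusedSectionVars false

variable {N : ℕ} {Γ : Gps N} [hs : Algebra.Smooth ℂ (Of Γ)] {I : Type} [Fintype I]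
  [DecidableEq I] {R : Rpn Γ I} {n : ℕ}

/-- The action of the forms and maps which are linear over the forms. -/
theorem opL_nat {A : Type} [CommRing A] [Algebra ℂ A] (E : SGD) {V V' : Type} [AddCommGroup V]
    [Module ℂ V] [Module (Om ℂ A) V] [IsScalarTower ℂ (Om ℂ A) V] [AddCommGroup V'] [Module ℂ V']
    [Module (Om ℂ A) V'] [IsScalarTower ℂ (Om ℂ A) V'] (f : V →ₗ[ℂ] V')
    (hf : ∀ (w : Om ℂ A) x, f (w • x) = w • f x) (w : Om ℂ A) (z : E.V ⊗[ℂ] V) :
    opL E V' w (TensorProduct.map LinearMap.id f z) =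
      TensorProduct.map LinearMap.id f (opL E V w z) := by
  induction z using TensorProduct.induction_on with
  | zero => simp only [map_zero]
  | tmul a x =>
    rw [TensorProduct.map_tmul, opL_tmul, opL_tmul, map_add, TensorProduct.map_tmul,
      TensorProduct.map_tmul, hf, hf]
    rfl
  | add x y hx hy => simp only [map_add, hx, hy]

section Nat

variable (hT : H389.Str (BGT Γ)) {K K' : GTD (BGT Γ)} {F F' : OmF (BGT Γ)} {E : OEF F n}
  {E' : OEF F' n} (S : Src R K E) (S' : Src R K' E') (a : EHom E E') (z : GTD.Coch K K' 0)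

/-- The product maps are natural. -/
theorem P_nat (X : Gen.BGObj Γ)
    (h : ∀ x : (K.F X).V, (S'.ev X).e (z.f X x) = (a.c.f X).lTensor (Wk I 0) ((S.ev X).e x))
    (y : ((DRF hT K).F X).M.V) : (S'.ev X).P ((DRF.coch hT z).f X y) =
      TensorProduct.map LinearMap.id (a.c.f X) ((S.ev X).P y) := by
  change (S'.ev X).P (szT 0 (cA z X) y) = _
  induction y using H710.DR.induction with
  | zero => simp only [map_zero]
  | tmul w x =>
    rw [szT_tmul, Om.sgz_zero, OAct.Ev.P_tmul, OAct.Ev.P_tmul]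
    have h1 : (S'.ev X).e (cA z X x) = (a.c.f X).lTensor (Wk I 0) ((S.ev X).e x) := h x
    rw [h1]
    exact opL_nat (WK I 0) (V := (F.F X).M.V) (V' := (F'.F X).M.V) (a.c.f X)
      (fun w x => (a.c.smul X w x).trans (by rw [Om.sgz_zero])) w ((S.ev X).e x)
  | add x y hx hy => simp only [map_add, hx, hy]

/-- **Naturality of the map to the twisted total.** -/
theorem Pi_nat (H : GY (gauX n R) (yop I n n) (xop I n) (1 : Wk I n))
    (h : ∀ (X : Gen.BGObj Γ) (x : (K.F X).V),
      (S'.ev X).e (z.f X x) = (a.c.f X).lTensor (Wk I 0) ((S.ev X).e x))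
    (v : ((gauX n R).Xi (DRF hT K)).V) :
    (H.map a).f ((S.Pi hT H).f v) =
      (S'.Pi hT H).f (((gauX n R).xi (DRF.coch hT z)).f v) := by
  refine H.ofNat_map E E' (S.nt hT H) (fun X t z => S.app_e hT X t z) (S'.nt hT H)
    (fun X t z => S'.app_e hT X t z) a (DRF.coch hT z) (fun X z' => ?_) v
  exact (piL_nat I n (S.ev X).P ((DRF.coch hT z).f X) (a.c.f X) (S'.ev X).P
    (fun y => P_nat hT S S' a z X (h X) y) z').symm

end Nat

end

end Vale.Agent.P286.H621
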