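import Vale.Agent.P286.H621.OfD
import Vale.Agent.P286.H353.Fin

/-!
# The sum map from the family of the complex of a family
-/

namespace Vale.Agent.P286.H621

open CategoryTheory CochainComplex.HomComplex
open Vale.Agent.P286.St Vale.Agent.P286.H847 Vale.Agent.P286.H353 Vale.Agent.P286.H652

noncomputable section

variable {T : TSite}

/-- The family of the complex of a family. -/
abbrev oT (F : GTD T) : GTD T := ofCx (GTD.cc F)

/-- The sum map. -/
def sg (F : GTD T) (X : T.C) : TS (GTD.cc F) X →ₗ[ℂ] (F.F X).V :=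
  DirectSum.toModule ℂ ℤ (F.F X).V fun i => F.val i X

theorem sg_io (F : GTD T) (X : T.C) (i : ℤ) (x : SS (GTD.cc F) X i) :
    sg F X (io (SS (GTD.cc F) X) i x) = F.val i X x :=
  DirectSum.toModule_lof ℂ i x

/-- The sum map is compatible with cochains. -/
theorem sg_tC {F F' : GTD T} {n : ℤ} (z : GTD.Coch F F' n) (X : T.C) (x : TS (GTD.cc F) X) :
    sg F' X (tC (GTD.toCo n z) X x) = z.f X (sg F X x) := by
  refine ds_fun (u := (sg F' X).comp (tC (GTD.toCo n z) X)) (v := (z.f X).comp (sg F X))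
    (fun i x => ?_) x
  have h1 := congrArg (sg F' X) (tC_io (GTD.toCo n z) X (rfl : i + n = i + n) x)
  exact (h1.trans (sg_io F' X (i + n) _)).trans (congrArg (z.f X) (sg_io F X i x)).symm

theorem sg_tD (F : GTD T) (X : T.C) (x : TS (GTD.cc F) X) :
    sg F X (tD (GTD.cc F) X x) = (F.F X).d (sg F X x) := by
  refine ds_fun (u := (sg F X).comp (tD (GTD.cc F) X)) (v := ((F.F X).d).comp (sg F X))
    (fun i x => ?_) x
  have h1 := congrArg (sg F X) (tD_io (GTD.cc F) (rfl : i + 1 = i + 1) x)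
  exact (h1.trans ((sg_io F X (i + 1) _).trans (GTD.val_dS F X i (i + 1) rfl x))).trans
    (congrArg (F.F X).d (sg_io F X i x)).symm

theorem sg_tr (F : GTD T) {X Y : T.C} (φ : X ⟶ Y) (x : TS (GTD.cc F) X) :
    sg F Y (tA (GTD.cc F) (.tr φ) x) = (F.tr φ).f (sg F X x) := by
  refine ds_fun (u := (sg F Y).comp (tA (GTD.cc F) (.tr φ))) (v := ((F.tr φ).f).comp (sg F X))
    (fun i x => ?_) x
  have h1 := congrArg (sg F Y) (tA_io (GTD.cc F) (.tr φ) i x)
  exact (h1.trans (sg_io F Y i _)).trans (congrArg (F.tr φ).f (sg_io F X i x)).symm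

theorem sg_fn (F : GTD T) (X : T.C) (a : T.R X) (x : TS (GTD.cc F) X) :
    sg F X (tA (GTD.cc F) (.fn a) x) = F.fn X a (sg F X x) := by
  refine ds_fun (u := (sg F X).comp (tA (GTD.cc F) (.fn a))) (v := (F.fn X a).comp (sg F X))
    (fun i x => ?_) x
  have h1 := congrArg (sg F X) (tA_io (GTD.cc F) (.fn a) i x)
  exact (h1.trans (sg_io F X i _)).trans (congrArg (F.fn X a) (sg_io F X i x)).symm

theorem sg_vf (F : GTD T) (X : T.C) (v : (T.A X).Der) (x : TS (GTD.cc F) X) :
    sg F X (tA (GTD.cc F) (.vf v) x) = F.vf X v (sg F X x) := by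
  refine ds_fun (u := (sg F X).comp (tA (GTD.cc F) (.vf v))) (v := (F.vf X v).comp (sg F X))
    (fun i x => ?_) x
  have h1 := congrArg (sg F X) (tA_io (GTD.cc F) (.vf v) i x)
  exact (h1.trans (sg_io F X i _)).trans (congrArg (F.vf X v) (sg_io F X i x)).symm

/-- The sum map, as a morphism of graded differential spaces. -/
def sigH (F : GTD T) (X : T.C) : GD.Hom ((oT F).F X) (F.F X) where
  f := sg F X
  comm x := sg_tD F X x
  deg m x hx := by
    obtain ⟨y, rfl⟩ := hx
    have h : sg F X (io (SS (GTD.cc F) X) m y) ∈ (F.F X).gr m := by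
      rw [sg_io]
      exact F.val_mem m X y
    exact h

theorem sigH_f (F : GTD T) (X : T.C) (x : ((oT F).F X).V) : (sigH F X).f x = sg F X x := rfl

theorem sig_io (F : GTD T) (X : T.C) (i : ℤ) (x : SS (GTD.cc F) X i) :
    (sigH F X).f (io (SS (GTD.cc F) X) i x) = F.val i X x := sg_io F X i x

theorem sg_inj (F : GTD T) (X : T.C) {m : ℤ} {x y : ((oT F).F X).V} (hx : x ∈ ((oT F).F X).gr m)
    (hy : y ∈ ((oT F).F X).gr m) (h : (sigH F X).f x = (sigH F X).f y) : x = y := by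
  obtain ⟨x, rfl⟩ := hx
  obtain ⟨y, rfl⟩ := hy
  exact congrArg (io (SS (GTD.cc F) X) m)
    (F.val_inj ((sig_io F X m x).symm.trans (h.trans (sig_io F X m y))))

theorem sg_surj (F : GTD T) (X : T.C) {m : ℤ} {x : (F.F X).V} (hx : x ∈ (F.F X).gr m) :
    ∃ y ∈ ((oT F).F X).gr m, (sigH F X).f y = x :=
  ⟨io (SS (GTD.cc F) X) m (F.el x hx), io_mem _ _, sig_io F X m (F.el x hx)⟩

/-- The sum map is a quasi-isomorphism. -/
theorem sigQ (F : GTD T) (X : T.C) : GD.Qis (sigH F X) := by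
  intro m
  refine ⟨?_, ?_⟩
  · rintro x hx hd ⟨y, hy, e⟩
    obtain ⟨z, hz, ez⟩ := sg_surj F X hy
    refine ⟨z, hz, sg_inj F X (GD.dgr' _ (by ring) hz) hx ?_⟩
    rw [(sigH F X).comm, ez, e]
  · intro y hy hd
    obtain ⟨z, hz, ez⟩ := sg_surj F X hy
    refine ⟨z, hz, ?_, 0, zero_mem _, ?_⟩
    · refine sg_inj F X (GD.dgr _ m z hz) (zero_mem _) ?_
      rw [(sigH F X).comm, ez, hd, map_zero]
    · rw [map_zero, ez, sub_self]

/-- The sum map, as a morphism of families. -/
def sigG (F : GTD T) : GHom (oT F) F where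
  f X := sigH F X
  fn X a x := sg_fn F X a x
  vf X v x := sg_vf F X v x
  tr φ x := sg_tr F φ x

theorem sigG_f (F : GTD T) (X : T.C) : (sigG F).f X = sigH F X := rfl

/-- The cochain of the sum map. -/
def sigZ (F : GTD T) : GTD.Coch (oT F) F 0 where
  f X := sg F X
  deg X m x hx := by
    rw [add_zero]
    exact (sigH F X).deg m x hx
  fn X a x := sg_fn F X a x
  vf X v x := sg_vf F X v x
  tr φ x := sg_tr F φ x

/-- The sum map is natural on cochains of all degrees. -/
theorem sigZ_nat {F F' : GTD T} {n : ℤ} (z : GTD.Coch F F' n) :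
    (ofCo n (GTD.toCo n z)).cmp (sigZ F') (add_zero n) = (sigZ F).cmp z (zero_add n) :=
  GTD.Coch.ext' fun X x => sg_tC z X x

/-- The natural transformation from `ofD ∘ toD` to the identity. -/
def natSig (T : TSite) : ((toD T).comp (ofD T)).z0 ⟶ 𝟭 (Z0 (gtc T)) :=
  natT (Φ := (toD T).comp (ofD T)) (Ψ := DGF.id (gtc T))
    (fun F => sigZ F)
    (fun F => (gdl_eq (zero_add 1) _).trans (GTD.Coch.cl_iff.2 fun X x => sg_tD F X x))
    (fun {F F'} f _ => sigZ_nat (F := F) (F' := F') f)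

theorem gh_natSig (F : Z0 (gtc T)) (X : T.C) : gh ((natSig T).app F) X = sigH (gt F) X := rfl

theorem goh_natSig (F : Z0 (gtc T)) : goh ((natSig T).app F) = sigG (gt F) := rfl

theorem gqis_natSig (F : Z0 (gtc T)) : gqis T ((natSig T).app F) := fun X => sigQ (gt F) X

theorem natW_sig (T : TSite) : NatW (gqis T) ((toD T).comp (ofD T)).z0 (𝟭 (Z0 (gtc T))) :=
  ⟨natSig T, gqis_natSig⟩

end

end Vale.Agent.P286.H621
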